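import Mathlib
import Vale.Agent.Lib.P302.InstB

/-!
# P302: a bin packing instance with OPT - LP at least 11/9
-/

namespace Vale.Agent.Results.P302.GapElevenNinths

open Vale.Agent.Lib.P302

/-- There is a bin packing instance (31 items) whose optimum exceeds the value of the
Gilmore-Gomory configuration LP by at least 11/9. -/
theorem result : ∃ I : List ℚ, (∀ a ∈ I, 0 < a ∧ a ≤ 1) ∧ (11 : ℝ) / 9 ≤ (OPT I : ℝ) - LP I := by
  refine ⟨inst 960000 fullB, inst_pos_le fullB_range, ?_⟩
  have a1 : 11 < OPT (inst 960000 fullB) :=
    lt_OPT (fun a ha => (inst_pos_le fullB_range a ha).2)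
      (no_packing_of_search (by norm_num) refB_search fullB_search)
  have a2 := LP_le (isLPValue_of_check (C := 960000) (D := 36) (by norm_num) (by norm_num) lpB_check)
  rw [patsB_total] at a2
  have a3 : (12 : ℝ) ≤ (OPT (inst 960000 fullB) : ℝ) := by exact_mod_cast a1
  norm_num at a2
  linarith

end Vale.Agent.Results.P302.GapElevenNinths
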