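import Vale.Agent.Lib.P302.GapTree
import Vale.Agent.Lib.P302.GapCut

set_option autoImplicit false

namespace Vale.Agent.Results.P302.GapElevenNinthsFin

open Vale.Agent.Lib.P302 Vale.Agent.Lib.P302.Gap

theorem h_items : ∀ x ∈ items, 0 < x ∧ x ≤ cap := by decide +kernel

theorem h_pat : ∀ p ∈ pats, (∀ s ∈ p.1, s ∈ items) ∧ p.1.sum ≤ cap := by decide +kernel

theorem h_cov : ∀ s ∈ items, 18 * items.count s ≤ (pats.map fun p => p.2 * p.1.count s).sum := by
  decide +kernel

theorem h_not : ¬ PacksM items ((List.replicate 11 cap : List ℕ) : Multiset ℕ) := by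
  apply not_packsM_of_cut pre post (List.replicate 11 cap) [stateA, stateB] _ cutOK
  intro C hC
  simp only [List.mem_cons, List.not_mem_nil, or_false] at hC
  rcases hC with rfl | rfl
  · exact notA
  · exact notB

/-- There is a bin packing instance (31 items) with `OPT - LP ≥ 11/9`. -/
theorem result : ∃ I : Inst, (11 : ℝ) / 9 ≤ (I.OPT : ℝ) - I.LP := by
  refine ⟨ofNat cap items h_items, ?_⟩
  have h1 := opt_ge' cap (by decide) items h_items 11 h_not
  have h2 := lp_le cap (by decide) items h_items pats 18 (by decide) h_pat h_cov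
  have h3 : (pats.map fun p => p.2).sum = 194 := by decide +kernel
  have h4 : ((11 + 1 : ℕ) : ℝ) ≤ ((ofNat cap items h_items).OPT : ℝ) := by exact_mod_cast h1
  rw [h3] at h2
  push_cast at h4 h2
  linarith

end Vale.Agent.Results.P302.GapElevenNinthsFin
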